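import Vale.Agent.Lib.P308.H27.DenseSpec

open Vale.Agent.Lib.P308.H27 in
/-- Let `G` be a finite `d`-regular graph on `n` vertices with adjacency matrix `A`, and let
`lam ≥ 0` be such that `‖A x‖ ≤ lam ‖x‖` (Euclidean norms) for every real vector `x` whose
entries sum to zero.  Write `N` for the number of near-perfect matchings (matchings missing
exactly two vertices) and `Z` for the number of perfect matchings.  Then
(1) for every natural number `γ ≥ 2` with `(5 γ + 4) lam (d + lam) ≤ d ^ 2`, if `d ≥ 1` then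
`N ≤ n (d + 1) ^ (2 ⌊log_γ n⌋ + 1) Z`; and
(2) for every natural number `L` with `lam ^ L * n ≤ d ^ L` and `144 L ^ 2 ≤ d`,
`d N ≤ n ^ 2 Z`. -/
theorem Vale.Agent.Results.P308.H27_SpectralTwoRegimes.result {V : Type*} [Fintype V]
    (G : SimpleGraph V) [DecidableRel G.Adj] (d : ℕ) (lam : ℝ)
    (hreg : ∀ v : V, (G.neighborSet v).ncard = d) (hlam : 0 ≤ lam)
    (hspec : ∀ x : V → ℝ, ∑ v, x v = 0 →
      ∑ v, ((G.adjMatrix ℝ).mulVec x v) ^ 2 ≤ lam ^ 2 * ∑ v, x v ^ 2) :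
    (∀ γ : ℕ, 2 ≤ γ → 0 < d → (5 * (γ : ℝ) + 4) * lam * (d + lam) ≤ (d : ℝ) ^ 2 →
      {M : G.Subgraph | M.IsMatching ∧ M.verts.ncard + 2 = Fintype.card V}.ncard
        ≤ Fintype.card V * (d + 1) ^ (2 * Nat.log γ (Fintype.card V) + 1)
          * {M : G.Subgraph | M.IsPerfectMatching}.ncard) ∧
    (∀ L : ℕ, lam ^ L * Fintype.card V ≤ (d : ℝ) ^ L → 144 * L ^ 2 ≤ d →
      {M : G.Subgraph | M.IsMatching ∧ M.verts.ncard + 2 = Fintype.card V}.ncard * d
        ≤ Fintype.card V ^ 2 * {M : G.Subgraph | M.IsPerfectMatching}.ncard) :=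
  ⟨fun γ hγ hd hsmall => spectral_ratio' G d γ lam hγ hd hreg hlam hspec hsmall,
    fun L hmix hdeg => dense_spectral G d L lam hreg hlam hspec hmix hdeg⟩
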