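import Vale.Agent.Lib.P308.H27.Eigen

open Vale.Agent.Lib.P308.H27 in
/-- Let `G` be a finite `d`-regular graph on `n` vertices, `d ≥ 1`, and suppose that all
eigenvalues of its adjacency matrix except one (counted with multiplicity and indexed by the
vertices, as in Mathlib's `Matrix.IsHermitian.eigenvalues`; `i₀` is the index of the
exceptional one, which is then the trivial eigenvalue `d`) are at most `d / 64` in absolute
value.  Write `N` for the number of near-perfect matchings (matchings missing exactly two
vertices) and `Z` for the number of perfect matchings.  Then `N ≤ n ^ 14 Z`, whatever the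
degree `d`. -/
theorem Vale.Agent.Results.P308.H27_UniformEigenvalues.result {V : Type*} [Fintype V]
    [DecidableEq V] (G : SimpleGraph V) [DecidableRel G.Adj] (d : ℕ) (hd : 0 < d)
    (hreg : ∀ v : V, (G.neighborSet v).ncard = d) (i₀ : V)
    (hev : ∀ i : V, i ≠ i₀ →
      |(Matrix.isHermitian_iff_isSymm.mpr (G.isSymm_adjMatrix (α := ℝ))).eigenvalues i|
        ≤ (d : ℝ) / 64) :
    {M : G.Subgraph | M.IsMatching ∧ M.verts.ncard + 2 = Fintype.card V}.ncard
      ≤ Fintype.card V ^ 14 * {M : G.Subgraph | M.IsPerfectMatching}.ncard :=
  (uniform_eig G d hd hreg _ i₀ hev).1
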