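import Vale.Agent.Lib.P308.H27.Uniform

open Vale.Agent.Lib.P308.H27 in
/-- Let `G` be a finite `d`-regular graph on `n` vertices, `d ≥ 1`, with adjacency matrix `A`,
and let `lam` with `0 ≤ lam ≤ d / 64` be such that `‖A x‖ ≤ lam ‖x‖` (Euclidean norms) for
every real vector `x` whose entries sum to zero.  Write `N` for the number of near-perfect
matchings (matchings missing exactly two vertices) and `Z` for the number of perfect matchings.
Then `N ≤ n ^ 14 Z`, and if `d ≥ 2 ^ 20` then even `N ≤ n ^ 3 Z`. -/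
theorem Vale.Agent.Results.P308.H27_UniformTwoBounds.result {V : Type*} [Fintype V]
    (G : SimpleGraph V) [DecidableRel G.Adj] (d : ℕ) (lam : ℝ) (hd : 0 < d)
    (hreg : ∀ v : V, (G.neighborSet v).ncard = d) (hlam : 0 ≤ lam) (hlam64 : lam ≤ d / 64)
    (hspec : ∀ x : V → ℝ, ∑ v, x v = 0 →
      ∑ v, ((G.adjMatrix ℝ).mulVec x v) ^ 2 ≤ lam ^ 2 * ∑ v, x v ^ 2) :
    {M : G.Subgraph | M.IsMatching ∧ M.verts.ncard + 2 = Fintype.card V}.ncard
        ≤ Fintype.card V ^ 14 * {M : G.Subgraph | M.IsPerfectMatching}.ncard ∧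
    (2 ^ 20 ≤ d →
      {M : G.Subgraph | M.IsMatching ∧ M.verts.ncard + 2 = Fintype.card V}.ncard
        ≤ Fintype.card V ^ 3 * {M : G.Subgraph | M.IsPerfectMatching}.ncard) :=
  ⟨uniform_all G d lam hd hreg hlam hspec hlam64,
    fun hbig => uniform_big G d lam hreg hlam hspec hlam64 hbig⟩
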